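import Vale.Agent.Lib.P052.Data

set_option autoImplicit false

namespace Vale.Agent.P052

theorem aut1 : chkAut g1 416 = true := by decide +kernel
theorem aut2 : chkAut g2 416 = true := by decide +kernel
theorem inv1 : chkInv g1 h1 = true := by decide +kernel
theorem inv2 : chkInv g2 h2 = true := by decide +kernel
theorem par_ok : chkPar = true := by decide +kernel
theorem base_ok : chkBase = true := by decide +kernel
theorem deg_ok : chkDeg = true := by decide +kernel
theorem typ_ok : chkTyp = true := by decide +kernel
theorem count_ok : chkCount = true := by decide +kernel
theorem nc_ok : nc 5 nbr0 = true := by decide +kernel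

end Vale.Agent.P052
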