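import Mathlib

set_option autoImplicit false

/-! General lemmas: isometric embedding of the range of an idempotent matrix, and a weighted
pigeonhole argument for covers by sets of smaller diameter. -/

namespace Vale.Agent.P052

open Finset

/-- a finite dimensional inner product space of dimension at most `d` embeds in `ℝ^d` -/
theorem exists_isometry {E : Type*} [NormedAddCommGroup E] [InnerProductSpace ℝ E]
    [FiniteDimensional ℝ E] (d : ℕ) (h : Module.finrank ℝ E ≤ d) :
    Nonempty (E →ₗᵢ[ℝ] EuclideanSpace ℝ (Fin d)) := by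
  let b := stdOrthonormalBasis ℝ E
  let c : Fin (Module.finrank ℝ E) → EuclideanSpace ℝ (Fin d) :=
    fun i => EuclideanSpace.basisFun (Fin d) ℝ (Fin.castLE h i)
  have hc : Orthonormal ℝ c :=
    (EuclideanSpace.basisFun (Fin d) ℝ).orthonormal.comp _ (Fin.castLE_injective h)
  let f : E →ₗ[ℝ] EuclideanSpace ℝ (Fin d) := b.toBasis.constr ℝ c
  have hb : Orthonormal ℝ b.toBasis := by
    rw [OrthonormalBasis.coe_toBasis]
    exact b.orthonormal
  have hf : Orthonormal ℝ (f ∘ b.toBasis) := by
    have : f ∘ b.toBasis = c := by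
      funext i
      simp only [Function.comp, f]
      rw [Module.Basis.constr_basis]
    rw [this]
    exact hc
  exact ⟨f.isometryOfOrthonormal hb hf⟩

/-- points fixed by an idempotent matrix of trace at most `d` can be placed in `ℝ^d` with the same
distances -/
theorem exists_points {κ : Type*} [Fintype κ] [DecidableEq κ] (Q : Matrix κ κ ℝ) (hQ : Q * Q = Q)
    (n d : ℕ) (htr : Q.trace = n) (hn : n ≤ d) {ι : Type*} (p : ι → EuclideanSpace ℝ κ)
    (hp : ∀ i, Q.mulVec (p i).ofLp = (p i).ofLp) :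
    ∃ q : ι → EuclideanSpace ℝ (Fin d), ∀ i j, dist (q i) (q j) = dist (p i) (p j) := by
  let L : EuclideanSpace ℝ κ →ₗ[ℝ] EuclideanSpace ℝ κ := Matrix.toLpLin 2 2 Q
  have hL : IsIdempotentElem L := by
    apply LinearMap.ext
    intro v
    change L (L v) = L v
    apply (WithLp.ofLp_injective 2)
    simp only [L, Matrix.ofLp_toLpLin, Matrix.toLin'_apply, Matrix.mulVec_mulVec, hQ]
  have htrL : LinearMap.trace ℝ _ L = n := by
    rw [← htr]
    simp only [L]
    rw [Matrix.toLpLin_eq_toLin, LinearMap.trace_eq_matrix_trace ℝ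
      (PiLp.basisFun 2 ℝ κ), LinearMap.toMatrix_toLin]
  have hfin : Module.finrank ℝ (LinearMap.range L) = n := by
    have h1 := (LinearMap.IsIdempotentElem.isProj_range _ hL).trace
    rw [htrL] at h1
    exact_mod_cast h1.symm
  obtain ⟨φ⟩ := exists_isometry (E := LinearMap.range L) d (by omega)
  have hmem : ∀ i, p i ∈ LinearMap.range L := by
    intro i
    refine ⟨p i, ?_⟩
    apply (WithLp.ofLp_injective 2)
    simp only [L, Matrix.ofLp_toLpLin, Matrix.toLin'_apply, hp]
  refine ⟨fun i => φ ⟨p i, hmem i⟩, fun i j => ?_⟩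
  rw [φ.isometry.dist_eq]
  rfl

/-- weighted pigeonhole: a finite set of diameter `D` all of whose subsets of smaller diameter have
weight at most one, of total weight more than `m`, is not the union of `m` sets of smaller
diameter -/
theorem no_cover {E : Type*} [MetricSpace E] {ι : Type*} [Fintype ι] [DecidableEq ι]
    (q : ι → E) (D : ℝ) (hD : 0 < D)
    (hle : ∀ i j, dist (q i) (q j) ≤ D) (hex : ∃ i j, dist (q i) (q j) = D)
    (w : ι → ℝ)
    (hw : ∀ s : Finset ι, (∀ a ∈ s, ∀ b ∈ s, dist (q a) (q b) < D) → ∑ a ∈ s, w a ≤ 1)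
    (hw0 : ∀ i, 0 ≤ w i)
    (m : ℕ) (hm : (m : ℝ) < ∑ i, w i) :
    Bornology.IsBounded (Set.range q) ∧ 0 < Metric.diam (Set.range q) ∧
      ¬ ∃ P : Fin m → Set E, Set.range q = ⋃ i, P i ∧
        ∀ i, Metric.diam (P i) < Metric.diam (Set.range q) := by
  classical
  have hbd : Bornology.IsBounded (Set.range q) := (Set.finite_range q).isBounded
  have hdiam : Metric.diam (Set.range q) = D := by
    apply le_antisymm
    · apply Metric.diam_le_of_forall_dist_le hD.le
      rintro _ ⟨i, rfl⟩ _ ⟨j, rfl⟩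
      exact hle i j
    · obtain ⟨i, j, hij⟩ := hex
      rw [← hij]
      exact Metric.dist_le_diam_of_mem hbd ⟨i, rfl⟩ ⟨j, rfl⟩
  refine ⟨hbd, hdiam ▸ hD, ?_⟩
  rintro ⟨P, hP, hPd⟩
  rw [hdiam] at hPd
  have hsub : ∀ i, P i ⊆ Set.range q := by
    intro i
    rw [hP]
    exact Set.subset_iUnion P i
  let S : Fin m → Finset ι := fun i => Finset.univ.filter (fun a => q a ∈ P i)
  have hS : ∀ i, ∑ a ∈ S i, w a ≤ 1 := by
    intro i
    apply hw
    intro a ha b hb
    simp only [S, Finset.mem_filter, Finset.mem_univ, true_and] at ha hb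
    exact lt_of_le_of_lt (Metric.dist_le_diam_of_mem (hbd.subset (hsub i)) ha hb) (hPd i)
  have hcov : ∀ a : ι, ∃ i, a ∈ S i := by
    intro a
    have h1 : q a ∈ ⋃ i, P i := by
      rw [← hP]
      exact ⟨a, rfl⟩
    rw [Set.mem_iUnion] at h1
    obtain ⟨i, hi⟩ := h1
    exact ⟨i, by simp only [S, Finset.mem_filter, Finset.mem_univ, true_and]; exact hi⟩
  have h2 : ∑ a, w a ≤ ∑ i, ∑ a ∈ S i, w a := by
    simp only [S, Finset.sum_filter]
    rw [Finset.sum_comm]
    apply Finset.sum_le_sum
    intro a _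
    obtain ⟨i, hi⟩ := hcov a
    simp only [S, Finset.mem_filter, Finset.mem_univ, true_and] at hi
    have h3 : (if q a ∈ P i then w a else 0) ≤ ∑ j, if q a ∈ P j then w a else 0 := by
      apply Finset.single_le_sum (f := fun j => if q a ∈ P j then w a else 0) _ (Finset.mem_univ i)
      intro j _
      split_ifs
      · exact hw0 a
      · exact le_rfl
    rw [if_pos hi] at h3
    exact h3
  have h4 : ∑ i, ∑ a ∈ S i, w a ≤ ∑ _i : Fin m, (1 : ℝ) := Finset.sum_le_sum (fun i _ => hS i)
  simp at h4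
  linarith

end Vale.Agent.P052
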