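import Vale.Agent.Lib.P052.Main

set_option autoImplicit false

namespace Vale.Agent.P052

open Finset

attribute [local irreducible] adjN entN nsum allBelow typ wgt T Mr eV cV lam Q63 Q64

/-! ### dimension 63 -/

/-- indices of the 321 points: the 320 vertices of type 0 and the vertex 0 (of type 1) -/
abbrev I63 : Type := {x : Fin 416 // typ x.val = 0 ∨ x = 0}

noncomputable def pt63 (x : I63) : EuclideanSpace ℝ (Fin 416) :=
  WithLp.toLp 2 (if x.1 = 0 then fun z => lam * (Mr 0 z - cV z) else fun z => Mr x.1 z)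

theorem pt63_zero (x : I63) (h : x.1 = 0) :
    pt63 x = WithLp.toLp 2 (fun z => lam * (Mr 0 z - cV z)) := by
  unfold pt63
  rw [if_pos h]

theorem pt63_ne (x : I63) (h : x.1 ≠ 0) : pt63 x = WithLp.toLp 2 (fun z => Mr x.1 z) := by
  unfold pt63
  rw [if_neg h]

theorem I63_typ (x : I63) (h : x.1 ≠ 0) : typ x.1.val = 0 := x.2.resolve_right h

theorem dist63 (x y : I63) (hxy : x ≠ y) :
    ∃ μ : ℝ, 0 < μ ∧ dist (pt63 x) (pt63 y) = Real.sqrt (3072 - μ * (A x.1 y.1 : ℝ)) := by
  have hne : x.1 ≠ y.1 := fun h => hxy (Subtype.ext h)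
  by_cases hx : x.1 = 0
  · have hy : y.1 ≠ 0 := fun h => hne (hx.trans h.symm)
    refine ⟨768 * lam, mul_pos (by norm_num) lam_pos, ?_⟩
    rw [pt63_zero x hx, pt63_ne y hy, dist_sq, sum_lam 0 y.1 typ0 (I63_typ y hy), hx]
  · by_cases hy : y.1 = 0
    · refine ⟨768 * lam, mul_pos (by norm_num) lam_pos, ?_⟩
      rw [dist_comm, pt63_zero y hy, pt63_ne x hx, dist_sq, sum_lam 0 x.1 typ0 (I63_typ x hx), hy,
        A_symm 0 x.1]
    · refine ⟨768, by norm_num, ?_⟩
      rw [pt63_ne x hx, pt63_ne y hy, dist_sq, sum_Mr x.1 y.1 hne]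

theorem card63 : Fintype.card I63 = 321 := by
  rw [Fintype.card_subtype, Finset.card_filter]
  have h : ∀ z : Fin 416, (if typ z.val = 0 ∨ z = 0 then 1 else 0) =
      T 0 z + if z = 0 then 1 else 0 := by
    intro z
    by_cases hz : z = 0
    · subst hz
      rw [T_typ 1 0 typ0]
      simp
    · by_cases ht : typ z.val = 0
      · rw [T_typ 0 z ht]
        simp [ht, hz]
      · have : T 0 z = 0 := by
          rw [T_typ _ z rfl, if_neg (fun h => ht h.symm)]
        rw [this]
        simp [ht, hz]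
  simp_rw [h]
  rw [Finset.sum_add_distrib, T0_count]
  simp

theorem dim63 : ∃ Y : Set (EuclideanSpace ℝ (Fin 63)),
    Bornology.IsBounded Y ∧ 0 < Metric.diam Y ∧
      ¬ ∃ P : Fin 64 → Set (EuclideanSpace ℝ (Fin 63)), Y = ⋃ i, P i ∧
        ∀ i, Metric.diam (P i) < Metric.diam Y := by
  obtain ⟨q, hq⟩ := exists_points Q63 Q63_idem 63 63 Q63_trace le_rfl pt63 (by
    intro x
    by_cases hx : x.1 = 0
    · rw [pt63_zero x hx]
      exact Q63_fix' 0 typ0 lam
    · rw [pt63_ne x hx]
      exact Q63_fix x.1 (I63_typ x hx))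
  have hD : (0 : ℝ) < Real.sqrt 3072 := Real.sqrt_pos.mpr (by norm_num)
  have hle : ∀ i j, dist (q i) (q j) ≤ Real.sqrt 3072 := by
    intro i j
    rw [hq]
    by_cases hij : i = j
    · rw [hij, dist_self]
      exact hD.le
    · obtain ⟨μ, hμ, h⟩ := dist63 i j hij
      rw [h]
      apply Real.sqrt_le_sqrt
      have : (0 : ℝ) ≤ μ * (A i.1 j.1 : ℝ) := mul_nonneg hμ.le (Nat.cast_nonneg _)
      linarith
  have hlt : ∀ i j, i ≠ j → dist (q i) (q j) < Real.sqrt 3072 → A i.1 j.1 ≠ 0 := by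
    intro i j hij h h0
    obtain ⟨μ, hμ, h2⟩ := dist63 i j hij
    rw [hq, h2, h0] at h
    simp at h
  have hcl : ∀ s : Finset I63, (∀ a ∈ s, ∀ b ∈ s, dist (q a) (q b) < Real.sqrt 3072) →
      s.card ≤ 5 := by
    intro s hs
    exact card_le_of_near (fun x : I63 => x.1) Subtype.val_injective s
      (fun a ha b hb hab => hlt a b hab (hs a ha b hb))
  refine ⟨Set.range q, no_cover q (Real.sqrt 3072) hD hle ?_ (fun _ => 1 / 5) ?_ ?_ 64 ?_⟩
  · by_contra hcon
    push Not at hcon
    have h := hcl Finset.univ (fun a _ b _ => lt_of_le_of_ne (hle a b) (hcon a b))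
    rw [Finset.card_univ, card63] at h
    omega
  · intro s hs
    have h := hcl s hs
    rw [Finset.sum_const, nsmul_eq_mul]
    have : (s.card : ℝ) ≤ 5 := by exact_mod_cast h
    linarith
  · intro _
    norm_num
  · rw [Finset.sum_const, Finset.card_univ, card63, nsmul_eq_mul]
    norm_num

/-! ### dimension 64 and more -/

/-- indices of the 352 points in dimension 64 -/
abbrev I64 : Type := {x : Fin 416 // typ x.val = 0 ∨ typ x.val = 1}

theorem card64 : Fintype.card I64 = 352 := by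
  rw [Fintype.card_subtype, Finset.card_filter]
  have h : ∀ z : Fin 416, (if typ z.val = 0 ∨ typ z.val = 1 then 1 else 0) =
      T 0 z + T 1 z := by
    intro z
    rw [T_typ _ z rfl, T_typ _ z rfl]
    rcases typ_cases z.val with h | h | h | h <;> rw [h] <;> simp
  simp_rw [h]
  rw [Finset.sum_add_distrib, T0_count, T_count 1 (Or.inl rfl)]

/-- a number with `m c^2 + 2 √1536 c = 96` -/
theorem exists_c (m : ℕ) (hm : 0 < m) : ∃ c : ℝ, m * c ^ 2 + 2 * Real.sqrt 1536 * c = 96 := by
  have hm' : (m : ℝ) ≠ 0 := by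
    have : (0 : ℝ) < m := by exact_mod_cast hm
    exact this.ne'
  have h1 : Real.sqrt 1536 ^ 2 = 1536 := Real.sq_sqrt (by norm_num)
  have h2 : Real.sqrt (1536 + 96 * m) ^ 2 = 1536 + 96 * m := Real.sq_sqrt (by positivity)
  generalize Real.sqrt (1536 + 96 * m) = s at h2
  generalize Real.sqrt 1536 = t at h1 ⊢
  refine ⟨(s - t) / m, ?_⟩
  field_simp
  linear_combination h2 - h1

/-- the points in dimension `64 + m` -/
noncomputable def ptm (m : ℕ) (c : ℝ) : I64 ⊕ Fin m → EuclideanSpace ℝ (Fin 416 ⊕ Fin m)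
  | Sum.inl x => WithLp.toLp 2 (Sum.elim (fun z => Mr x.1 z) (fun _ => 0))
  | Sum.inr j => WithLp.toLp 2 (Sum.elim (fun _ => 0) (fun i => (if i = j then Real.sqrt 1536 else 0) + c))

noncomputable def Qm (m : ℕ) : Matrix (Fin 416 ⊕ Fin m) (Fin 416 ⊕ Fin m) ℝ :=
  Matrix.fromBlocks Q64 0 0 1

theorem Qm_idem (m : ℕ) : Qm m * Qm m = Qm m := by
  unfold Qm
  rw [Matrix.fromBlocks_multiply]
  simp [Q64_idem]

theorem Qm_trace (m : ℕ) : (Qm m).trace = ((64 + m : ℕ) : ℝ) := by
  unfold Qm
  have h : (Matrix.fromBlocks Q64 0 0 (1 : Matrix (Fin m) (Fin m) ℝ)).trace =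
      Q64.trace + (1 : Matrix (Fin m) (Fin m) ℝ).trace := by
    unfold Matrix.trace
    rw [Fintype.sum_sum_type]
    rfl
  rw [h, Q64_trace, Matrix.trace_one]
  simp

theorem distm_ll (m : ℕ) (c : ℝ) (x y : I64) (hxy : x ≠ y) :
    dist (ptm m c (Sum.inl x)) (ptm m c (Sum.inl y)) =
      Real.sqrt (3072 - 768 * (A x.1 y.1 : ℝ)) := by
  have hne : x.1 ≠ y.1 := fun h => hxy (Subtype.ext h)
  unfold ptm
  rw [dist_sq, Fintype.sum_sum_type]
  simp only [Sum.elim_inl, Sum.elim_inr]
  rw [sum_Mr x.1 y.1 hne]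
  simp

theorem distm_lr (m : ℕ) (c : ℝ) (hc : m * c ^ 2 + 2 * Real.sqrt 1536 * c = 96) (x : I64)
    (j : Fin m) :
    dist (ptm m c (Sum.inl x)) (ptm m c (Sum.inr j)) = Real.sqrt 3072 := by
  unfold ptm
  rw [dist_sq, Fintype.sum_sum_type]
  simp only [Sum.elim_inl, Sum.elim_inr, sub_zero, zero_sub]
  rw [sum_MrSelf]
  congr 1
  have h1 : ∀ i : Fin m, (-((if i = j then Real.sqrt 1536 else 0) + c)) ^ 2 =
      (if i = j then Real.sqrt 1536 ^ 2 + 2 * Real.sqrt 1536 * c else 0) + c ^ 2 := by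
    intro i
    split_ifs <;> ring
  simp_rw [h1]
  rw [Finset.sum_add_distrib, Finset.sum_ite_eq' Finset.univ j]
  simp
  linarith

theorem distm_rr (m : ℕ) (c : ℝ) (i j : Fin m) (hij : i ≠ j) :
    dist (ptm m c (Sum.inr i)) (ptm m c (Sum.inr j)) = Real.sqrt 3072 := by
  unfold ptm
  rw [dist_sq, Fintype.sum_sum_type]
  simp only [Sum.elim_inl, Sum.elim_inr]
  congr 1
  have h1 : ∀ k : Fin m, ((if k = i then Real.sqrt 1536 else 0) + c -
      ((if k = j then Real.sqrt 1536 else 0) + c)) ^ 2 =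
      (if k = i then Real.sqrt 1536 ^ 2 else 0) + (if k = j then Real.sqrt 1536 ^ 2 else 0) := by
    intro k
    by_cases h1 : k = i
    · have h2 : k ≠ j := fun h => hij (h1.symm.trans h)
      rw [if_pos h1, if_pos h1, if_neg h2, if_neg h2]
      ring
    · rw [if_neg h1, if_neg h1]
      split_ifs <;> ring
  simp_rw [h1]
  rw [Finset.sum_add_distrib, Finset.sum_ite_eq' Finset.univ i, Finset.sum_ite_eq' Finset.univ j]
  simp
  norm_num

theorem dim64 (m : ℕ) : ∃ Y : Set (EuclideanSpace ℝ (Fin (64 + m))),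
    Bornology.IsBounded Y ∧ 0 < Metric.diam Y ∧
      ¬ ∃ P : Fin (64 + m + 1) → Set (EuclideanSpace ℝ (Fin (64 + m))), Y = ⋃ i, P i ∧
        ∀ i, Metric.diam (P i) < Metric.diam Y := by
  obtain ⟨c, hc⟩ : ∃ c : ℝ, 0 < m → m * c ^ 2 + 2 * Real.sqrt 1536 * c = 96 := by
    rcases Nat.eq_zero_or_pos m with h | h
    · exact ⟨0, fun h' => by omega⟩
    · obtain ⟨c, hc⟩ := exists_c m h
      exact ⟨c, fun _ => hc⟩
  obtain ⟨q, hq⟩ := exists_points (Qm m) (Qm_idem m) (64 + m) (64 + m) (Qm_trace m) le_rfl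
    (ptm m c) (by
      intro x
      rcases x with x | j
      · unfold ptm Qm
        simp only
        rw [Matrix.fromBlocks_mulVec]
        have h := Q64_fix x.1 x.2
        funext z
        rcases z with z | z
        · simp [h, Function.comp_def]
        · simp [Function.comp_def]
      · unfold ptm Qm
        simp only
        rw [Matrix.fromBlocks_mulVec]
        funext z
        rcases z with z | z
        · have h0 : Q64.mulVec (fun _ => (0 : ℝ)) = 0 := Matrix.mulVec_zero Q64
          simp [Function.comp_def, h0]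
        · simp [Function.comp_def])
  have hD : (0 : ℝ) < Real.sqrt 3072 := Real.sqrt_pos.mpr (by norm_num)
  have hdist : ∀ i j, i ≠ j → dist (q i) (q j) = Real.sqrt 3072 ∨
      ∃ x y : I64, i = Sum.inl x ∧ j = Sum.inl y ∧
        dist (q i) (q j) = Real.sqrt (3072 - 768 * (A x.1 y.1 : ℝ)) := by
    intro i j hij
    rw [hq]
    rcases i with x | i <;> rcases j with y | j
    · right
      exact ⟨x, y, rfl, rfl, distm_ll m c x y (fun h => hij (by rw [h]))⟩
    · left
      have hm : 0 < m := lt_of_le_of_lt (Nat.zero_le _) j.isLt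
      exact distm_lr m c (hc hm) x j
    · left
      have hm : 0 < m := lt_of_le_of_lt (Nat.zero_le _) i.isLt
      rw [dist_comm]
      exact distm_lr m c (hc hm) y i
    · left
      exact distm_rr m c i j (fun h => hij (by rw [h]))
  have hle : ∀ i j, dist (q i) (q j) ≤ Real.sqrt 3072 := by
    intro i j
    by_cases hij : i = j
    · rw [hij, dist_self]
      exact hD.le
    · rcases hdist i j hij with h | ⟨x, y, _, _, h⟩
      · exact h.le
      · rw [h]
        apply Real.sqrt_le_sqrt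
        have : (0 : ℝ) ≤ (A x.1 y.1 : ℝ) := Nat.cast_nonneg _
        linarith
  have hcl : ∀ s : Finset (I64 ⊕ Fin m),
      (∀ a ∈ s, ∀ b ∈ s, dist (q a) (q b) < Real.sqrt 3072) →
      (∃ j, s = {Sum.inr j}) ∨ (s.card ≤ 5 ∧ ∀ a ∈ s, ∃ x, a = Sum.inl x) := by
    intro s hs
    by_cases hj : ∃ j, Sum.inr j ∈ s
    · left
      obtain ⟨j, hj⟩ := hj
      refine ⟨j, ?_⟩
      apply Finset.eq_singleton_iff_unique_mem.mpr
      refine ⟨hj, fun a ha => ?_⟩
      by_contra hne
      rcases hdist a (Sum.inr j) hne with h | ⟨x, y, _, h2, _⟩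
      · exact absurd (hs a ha _ hj) (by rw [h]; exact lt_irrefl _)
      · exact absurd h2 (by simp)
    · right
      have hall : ∀ a ∈ s, ∃ x, a = Sum.inl x := by
        intro a ha
        rcases a with x | j
        · exact ⟨x, rfl⟩
        · exact absurd ⟨j, ha⟩ hj
      refine ⟨?_, hall⟩
      have h := card_le_of_near (fun x : I64 => x.1) Subtype.val_injective
        (Finset.univ.filter (fun x : I64 => Sum.inl x ∈ s)) (by
          intro a ha b hb hab h0
          simp only [Finset.mem_filter, Finset.mem_univ, true_and] at ha hb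
          have hne : (Sum.inl a : I64 ⊕ Fin m) ≠ Sum.inl b := fun h => hab (Sum.inl_injective h)
          have hlt := hs _ ha _ hb
          rw [hq, distm_ll m c a b hab, h0] at hlt
          simp at hlt)
      have h2 : s ⊆ (Finset.univ.filter (fun x : I64 => Sum.inl x ∈ s)).image Sum.inl := by
        intro a ha
        obtain ⟨x, rfl⟩ := hall a ha
        rw [Finset.mem_image]
        exact ⟨x, by simp [ha], rfl⟩
      exact (Finset.card_le_card h2).trans (Finset.card_image_le.trans h)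
  refine ⟨Set.range q, no_cover q (Real.sqrt 3072) hD hle ?_
    (fun a => Sum.elim (fun _ => 1 / 5) (fun _ => 1) a) ?_ ?_ (64 + m + 1) ?_⟩
  · by_contra hcon
    push Not at hcon
    have h := card_le_of_near (fun x : I64 => x.1) Subtype.val_injective Finset.univ (by
      intro a _ b _ hab h0
      have := hcon (Sum.inl a) (Sum.inl b)
      rw [hq, distm_ll m c a b hab, h0] at this
      simp at this)
    rw [Finset.card_univ, card64] at h
    omega
  · intro s hs
    rcases hcl s hs with ⟨j, rfl⟩ | ⟨hc5, hall⟩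
    · simp
    · have h1 : ∑ a ∈ s, Sum.elim (fun _ : I64 => (1 / 5 : ℝ)) (fun _ : Fin m => (1 : ℝ)) a =
          ∑ a ∈ s, (1 / 5 : ℝ) := by
        apply Finset.sum_congr rfl
        intro a ha
        obtain ⟨x, rfl⟩ := hall a ha
        rfl
      rw [h1, Finset.sum_const, nsmul_eq_mul]
      have : (s.card : ℝ) ≤ 5 := by exact_mod_cast hc5
      linarith
  · intro a
    rcases a with x | j <;> simp
  · rw [Fintype.sum_sum_type]
    simp only [Sum.elim_inl, Sum.elim_inr]
    rw [Finset.sum_const, Finset.sum_const, Finset.card_univ, Finset.card_univ, card64,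
      Fintype.card_fin, nsmul_eq_mul, nsmul_eq_mul]
    push_cast
    norm_num
    linarith

end Vale.Agent.P052
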