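import Vale.Agent.Lib.P052.Final

set_option autoImplicit false

/-! # P052: the counterexamples in dimensions `d ≥ 63` are finite sets -/

namespace Vale.Agent.P052

open Finset

attribute [local irreducible] adjN entN nsum allBelow typ wgt T Mr eV cV lam Q63 Q64

theorem dim63Fin : ∃ Y : Set (EuclideanSpace ℝ (Fin 63)),
    Y.Finite ∧ 0 < Metric.diam Y ∧
      ¬ ∃ P : Fin 64 → Set (EuclideanSpace ℝ (Fin 63)), Y = ⋃ i, P i ∧
        ∀ i, Metric.diam (P i) < Metric.diam Y := by
  obtain ⟨q, hq⟩ := exists_points Q63 Q63_idem 63 63 Q63_trace le_rfl pt63 (by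
    intro x
    by_cases hx : x.1 = 0
    · rw [pt63_zero x hx]
      exact Q63_fix' 0 typ0 lam
    · rw [pt63_ne x hx]
      exact Q63_fix x.1 (I63_typ x hx))
  have hD : (0 : ℝ) < Real.sqrt 3072 := Real.sqrt_pos.mpr (by norm_num)
  have hle : ∀ i j, dist (q i) (q j) ≤ Real.sqrt 3072 := by
    intro i j
    rw [hq]
    by_cases hij : i = j
    · rw [hij, dist_self]
      exact hD.le
    · obtain ⟨μ, hμ, h⟩ := dist63 i j hij
      rw [h]
      apply Real.sqrt_le_sqrt
      have : (0 : ℝ) ≤ μ * (A i.1 j.1 : ℝ) := mul_nonneg hμ.le (Nat.cast_nonneg _)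
      linarith
  have hlt : ∀ i j, i ≠ j → dist (q i) (q j) < Real.sqrt 3072 → A i.1 j.1 ≠ 0 := by
    intro i j hij h h0
    obtain ⟨μ, hμ, h2⟩ := dist63 i j hij
    rw [hq, h2, h0] at h
    simp at h
  have hcl : ∀ s : Finset I63, (∀ a ∈ s, ∀ b ∈ s, dist (q a) (q b) < Real.sqrt 3072) →
      s.card ≤ 5 := by
    intro s hs
    exact card_le_of_near (fun x : I63 => x.1) Subtype.val_injective s
      (fun a ha b hb hab => hlt a b hab (hs a ha b hb))
  refine ⟨Set.range q, Set.finite_range q, And.right <| no_cover q (Real.sqrt 3072) hD hle ?_ (fun _ => 1 / 5) ?_ ?_ 64 ?_⟩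
  · by_contra hcon
    push Not at hcon
    have h := hcl Finset.univ (fun a _ b _ => lt_of_le_of_ne (hle a b) (hcon a b))
    rw [Finset.card_univ, card63] at h
    omega
  · intro s hs
    have h := hcl s hs
    rw [Finset.sum_const, nsmul_eq_mul]
    have : (s.card : ℝ) ≤ 5 := by exact_mod_cast h
    linarith
  · intro _
    norm_num
  · rw [Finset.sum_const, Finset.card_univ, card63, nsmul_eq_mul]
    norm_num

theorem dim64Fin (m : ℕ) : ∃ Y : Set (EuclideanSpace ℝ (Fin (64 + m))),
    Y.Finite ∧ 0 < Metric.diam Y ∧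
      ¬ ∃ P : Fin (64 + m + 1) → Set (EuclideanSpace ℝ (Fin (64 + m))), Y = ⋃ i, P i ∧
        ∀ i, Metric.diam (P i) < Metric.diam Y := by
  obtain ⟨c, hc⟩ : ∃ c : ℝ, 0 < m → m * c ^ 2 + 2 * Real.sqrt 1536 * c = 96 := by
    rcases Nat.eq_zero_or_pos m with h | h
    · exact ⟨0, fun h' => by omega⟩
    · obtain ⟨c, hc⟩ := exists_c m h
      exact ⟨c, fun _ => hc⟩
  obtain ⟨q, hq⟩ := exists_points (Qm m) (Qm_idem m) (64 + m) (64 + m) (Qm_trace m) le_rfl
    (ptm m c) (by
      intro x
      rcases x with x | j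
      · unfold ptm Qm
        simp only
        rw [Matrix.fromBlocks_mulVec]
        have h := Q64_fix x.1 x.2
        funext z
        rcases z with z | z
        · simp [h, Function.comp_def]
        · simp [Function.comp_def]
      · unfold ptm Qm
        simp only
        rw [Matrix.fromBlocks_mulVec]
        funext z
        rcases z with z | z
        · have h0 : Q64.mulVec (fun _ => (0 : ℝ)) = 0 := Matrix.mulVec_zero Q64
          simp [Function.comp_def, h0]
        · simp [Function.comp_def])
  have hD : (0 : ℝ) < Real.sqrt 3072 := Real.sqrt_pos.mpr (by norm_num)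
  have hdist : ∀ i j, i ≠ j → dist (q i) (q j) = Real.sqrt 3072 ∨
      ∃ x y : I64, i = Sum.inl x ∧ j = Sum.inl y ∧
        dist (q i) (q j) = Real.sqrt (3072 - 768 * (A x.1 y.1 : ℝ)) := by
    intro i j hij
    rw [hq]
    rcases i with x | i <;> rcases j with y | j
    · right
      exact ⟨x, y, rfl, rfl, distm_ll m c x y (fun h => hij (by rw [h]))⟩
    · left
      have hm : 0 < m := lt_of_le_of_lt (Nat.zero_le _) j.isLt
      exact distm_lr m c (hc hm) x j
    · left
      have hm : 0 < m := lt_of_le_of_lt (Nat.zero_le _) i.isLt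
      rw [dist_comm]
      exact distm_lr m c (hc hm) y i
    · left
      exact distm_rr m c i j (fun h => hij (by rw [h]))
  have hle : ∀ i j, dist (q i) (q j) ≤ Real.sqrt 3072 := by
    intro i j
    by_cases hij : i = j
    · rw [hij, dist_self]
      exact hD.le
    · rcases hdist i j hij with h | ⟨x, y, _, _, h⟩
      · exact h.le
      · rw [h]
        apply Real.sqrt_le_sqrt
        have : (0 : ℝ) ≤ (A x.1 y.1 : ℝ) := Nat.cast_nonneg _
        linarith
  have hcl : ∀ s : Finset (I64 ⊕ Fin m),
      (∀ a ∈ s, ∀ b ∈ s, dist (q a) (q b) < Real.sqrt 3072) →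
      (∃ j, s = {Sum.inr j}) ∨ (s.card ≤ 5 ∧ ∀ a ∈ s, ∃ x, a = Sum.inl x) := by
    intro s hs
    by_cases hj : ∃ j, Sum.inr j ∈ s
    · left
      obtain ⟨j, hj⟩ := hj
      refine ⟨j, ?_⟩
      apply Finset.eq_singleton_iff_unique_mem.mpr
      refine ⟨hj, fun a ha => ?_⟩
      by_contra hne
      rcases hdist a (Sum.inr j) hne with h | ⟨x, y, _, h2, _⟩
      · exact absurd (hs a ha _ hj) (by rw [h]; exact lt_irrefl _)
      · exact absurd h2 (by simp)
    · right
      have hall : ∀ a ∈ s, ∃ x, a = Sum.inl x := by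
        intro a ha
        rcases a with x | j
        · exact ⟨x, rfl⟩
        · exact absurd ⟨j, ha⟩ hj
      refine ⟨?_, hall⟩
      have h := card_le_of_near (fun x : I64 => x.1) Subtype.val_injective
        (Finset.univ.filter (fun x : I64 => Sum.inl x ∈ s)) (by
          intro a ha b hb hab h0
          simp only [Finset.mem_filter, Finset.mem_univ, true_and] at ha hb
          have hne : (Sum.inl a : I64 ⊕ Fin m) ≠ Sum.inl b := fun h => hab (Sum.inl_injective h)
          have hlt := hs _ ha _ hb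
          rw [hq, distm_ll m c a b hab, h0] at hlt
          simp at hlt)
      have h2 : s ⊆ (Finset.univ.filter (fun x : I64 => Sum.inl x ∈ s)).image Sum.inl := by
        intro a ha
        obtain ⟨x, rfl⟩ := hall a ha
        rw [Finset.mem_image]
        exact ⟨x, by simp [ha], rfl⟩
      exact (Finset.card_le_card h2).trans (Finset.card_image_le.trans h)
  refine ⟨Set.range q, Set.finite_range q, And.right <| no_cover q (Real.sqrt 3072) hD hle ?_
    (fun a => Sum.elim (fun _ => 1 / 5) (fun _ => 1) a) ?_ ?_ (64 + m + 1) ?_⟩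
  · by_contra hcon
    push Not at hcon
    have h := card_le_of_near (fun x : I64 => x.1) Subtype.val_injective Finset.univ (by
      intro a _ b _ hab h0
      have := hcon (Sum.inl a) (Sum.inl b)
      rw [hq, distm_ll m c a b hab, h0] at this
      simp at this)
    rw [Finset.card_univ, card64] at h
    omega
  · intro s hs
    rcases hcl s hs with ⟨j, rfl⟩ | ⟨hc5, hall⟩
    · simp
    · have h1 : ∑ a ∈ s, Sum.elim (fun _ : I64 => (1 / 5 : ℝ)) (fun _ : Fin m => (1 : ℝ)) a =
          ∑ a ∈ s, (1 / 5 : ℝ) := by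
        apply Finset.sum_congr rfl
        intro a ha
        obtain ⟨x, rfl⟩ := hall a ha
        rfl
      rw [h1, Finset.sum_const, nsmul_eq_mul]
      have : (s.card : ℝ) ≤ 5 := by exact_mod_cast hc5
      linarith
  · intro a
    rcases a with x | j <;> simp
  · rw [Fintype.sum_sum_type]
    simp only [Sum.elim_inl, Sum.elim_inr]
    rw [Finset.sum_const, Finset.sum_const, Finset.card_univ, Finset.card_univ, card64,
      Fintype.card_fin, nsmul_eq_mul, nsmul_eq_mul]
    push_cast
    norm_num
    linarith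

end Vale.Agent.P052
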