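import Vale.Agent.Lib.P052.Graph
import Vale.Agent.Lib.P052.Embed

set_option autoImplicit false

namespace Vale.Agent.P052

open Finset

attribute [local irreducible] adjN entN nsum allBelow typ wgt

/-- indicator of the vertices of type `j` -/
def T (j : ℕ) (z : Fin 416) : ℕ := if typ z.val = j then 1 else 0

theorem typ_le (x : ℕ) : typ x ≤ 3 := by
  unfold typ
  exact Nat.and_le_right

theorem typ_cases (x : ℕ) : typ x = 0 ∨ typ x = 1 ∨ typ x = 2 ∨ typ x = 3 := by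
  have := typ_le x
  omega

theorem wgt_eq (z : Fin 416) : wgt z.val = T 1 z + 1000 * T 2 z + 1000000 * T 3 z := by
  unfold wgt T
  rcases typ_cases z.val with h | h | h | h <;> rw [h] <;> simp

theorem T_le (j : ℕ) (z : Fin 416) : T j z ≤ 1 := by
  unfold T
  split_ifs <;> simp

theorem NT_le (j : ℕ) (x : Fin 416) : ∑ z, N x z * T j z ≤ 104 := by
  rw [← N_deg x]
  apply Finset.sum_le_sum
  intro z _
  have := T_le j z
  calc N x z * T j z ≤ N x z * 1 := Nat.mul_le_mul_left _ this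
    _ = N x z := Nat.mul_one _

theorem NT_sum (x : Fin 416) :
    ∑ z, N x z * T 1 z + 1000 * ∑ z, N x z * T 2 z + 1000000 * ∑ z, N x z * T 3 z =
      if typ x.val = 0 then 8008008 else 24 * wgt x.val := by
  have h := allBelow_spec _ _ typ_ok x.val x.isLt
  have h1 := Nat.eq_of_beq_eq_true h
  rw [nsum_fin] at h1
  have h2 : ∑ z : Fin 416, Nat.mul (entN x.val z.val) (wgt z.val) =
      ∑ z, N x z * T 1 z + 1000 * ∑ z, N x z * T 2 z + 1000000 * ∑ z, N x z * T 3 z := by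
    rw [Finset.mul_sum, Finset.mul_sum, ← Finset.sum_add_distrib, ← Finset.sum_add_distrib]
    apply Finset.sum_congr rfl
    intro z _
    rw [wgt_eq]
    have : entN x.val z.val = N x z := rfl
    rw [this]
    have h3 : ∀ a b : ℕ, Nat.mul a b = a * b := fun _ _ => rfl
    rw [h3]
    ring
  rw [← h2, h1]
  rfl

theorem NT_all (x : Fin 416) :
    (∑ z, N x z * T 1 z = if typ x.val = 0 then 8 else 24 * T 1 x) ∧
    (∑ z, N x z * T 2 z = if typ x.val = 0 then 8 else 24 * T 2 x) ∧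
    (∑ z, N x z * T 3 z = if typ x.val = 0 then 8 else 24 * T 3 x) := by
  have h := NT_sum x
  rw [wgt_eq] at h
  have h1 := NT_le 1 x
  have h2 := NT_le 2 x
  have h3 := NT_le 3 x
  have hT : ∀ i, T i x = if typ x.val = i then 1 else 0 := fun i => rfl
  have hT1 := hT 1
  have hT2 := hT 2
  have hT3 := hT 3
  generalize ∑ z, N x z * T 1 z = s1 at h h1 ⊢
  generalize ∑ z, N x z * T 2 z = s2 at h h2 ⊢
  generalize ∑ z, N x z * T 3 z = s3 at h h3 ⊢
  generalize T 1 x = t1 at h hT1 ⊢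
  generalize T 2 x = t2 at h hT2 ⊢
  generalize T 3 x = t3 at h hT3 ⊢
  have hc := typ_cases x.val
  generalize typ x.val = t at h hT1 hT2 hT3 hc ⊢
  rcases hc with rfl | rfl | rfl | rfl
  · simp at hT1 hT2 hT3 h ⊢
    omega
  all_goals
    simp at hT1 hT2 hT3 h ⊢
    subst hT1 hT2 hT3
    omega

theorem NT_spec (j : ℕ) (hj : j = 1 ∨ j = 2 ∨ j = 3) (x : Fin 416) :
    ∑ z, N x z * T j z = if typ x.val = 0 then 8 else 24 * T j x := by
  rcases hj with rfl | rfl | rfl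
  · exact (NT_all x).1
  · exact (NT_all x).2.1
  · exact (NT_all x).2.2

theorem T_count (j : ℕ) (hj : j = 1 ∨ j = 2 ∨ j = 3) : ∑ z, T j z = 32 := by
  have h := count_ok
  unfold chkCount at h
  rw [Bool.and_eq_true] at h
  have h1 := Nat.eq_of_beq_eq_true h.1
  rw [nsum_fin] at h1
  have h2 : ∑ z : Fin 416, wgt z.val = ∑ z, T 1 z + 1000 * ∑ z, T 2 z + 1000000 * ∑ z, T 3 z := by
    rw [Finset.mul_sum, Finset.mul_sum, ← Finset.sum_add_distrib, ← Finset.sum_add_distrib]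
    apply Finset.sum_congr rfl
    intro z _
    rw [wgt_eq]
  have hle : ∀ j, ∑ z, T j z ≤ 416 := by
    intro j
    calc ∑ z, T j z ≤ ∑ _z : Fin 416, 1 := Finset.sum_le_sum (fun z _ => T_le j z)
      _ = 416 := by simp
  have a1 := hle 1
  have a2 := hle 2
  have a3 := hle 3
  rw [h2] at h1
  rcases hj with rfl | rfl | rfl <;> omega

theorem typ0 : typ (0 : Fin 416).val = 1 := by
  have h := count_ok
  unfold chkCount at h
  rw [Bool.and_eq_true] at h
  have h2 : typ 0 = 1 := Nat.eq_of_beq_eq_true h.2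
  exact h2

theorem T_sum (z : Fin 416) : T 0 z + T 1 z + T 2 z + T 3 z = 1 := by
  unfold T
  rcases typ_cases z.val with h | h | h | h <;> rw [h] <;> simp

theorem T0_count : ∑ z, T 0 z = 320 := by
  have h : ∑ z, (T 0 z + T 1 z + T 2 z + T 3 z) = 416 := by
    simp_rw [T_sum]
    simp
  have h0 : ∑ z, (T 0 z + T 1 z + T 2 z + T 3 z) =
      ∑ z, T 0 z + ∑ z, T 1 z + ∑ z, T 2 z + ∑ z, T 3 z := by
    simp only [Finset.sum_add_distrib]
  rw [h0] at h
  have h1 := T_count 1 (Or.inl rfl)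
  have h2 := T_count 2 (Or.inr (Or.inl rfl))
  have h3 := T_count 3 (Or.inr (Or.inr rfl))
  omega

theorem T_mul (i j : ℕ) (hij : i ≠ j) (z : Fin 416) : T i z * T j z = 0 := by
  unfold T
  split_ifs with h1 h2
  · omega
  · rfl
  · rfl
  · rfl

theorem T_sq (i : ℕ) (z : Fin 416) : T i z * T i z = T i z := by
  unfold T
  split_ifs <;> rfl

/-! ### real matrices and vectors -/

/-- the matrix `4 (A + 4 I) - J`, equal to 96 times an orthogonal projection of rank 65 -/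
noncomputable def Mr (x y : Fin 416) : ℝ := 4 * (N x y : ℝ) - 1

theorem Mr_symm (x y : Fin 416) : Mr x y = Mr y x := by
  unfold Mr
  rw [N_symm]

theorem Mr_self (x : Fin 416) : Mr x x = 15 := by
  unfold Mr
  rw [N_def]
  norm_num

theorem Mr_sq (x y : Fin 416) : ∑ z, Mr x z * Mr y z = 96 * Mr x y := by
  have h : ∀ z, Mr x z * Mr y z =
      16 * ((N x z : ℝ) * (N y z : ℝ)) - 4 * (N x z : ℝ) - 4 * (N y z : ℝ) + 1 := by
    intro z
    unfold Mr
    ring
  simp_rw [h]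
  rw [Finset.sum_add_distrib, Finset.sum_sub_distrib, Finset.sum_sub_distrib, ← Finset.mul_sum,
    ← Finset.mul_sum, ← Finset.mul_sum]
  have h1 : ∑ z, (N x z : ℝ) * (N y z : ℝ) = 24 * (N x y : ℝ) + 20 := by
    exact_mod_cast N_sq x y
  have h2 : ∀ x, ∑ z, (N x z : ℝ) = 104 := by
    intro x
    exact_mod_cast N_deg x
  rw [h1, h2, h2]
  simp
  unfold Mr
  ring

/-- the vector `T 2 - T 3` -/
noncomputable def eV (z : Fin 416) : ℝ := (T 2 z : ℝ) - (T 3 z : ℝ)

/-- the vector `2 T 1 - T 2 - T 3` -/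
noncomputable def cV (z : Fin 416) : ℝ := 2 * (T 1 z : ℝ) - (T 2 z : ℝ) - (T 3 z : ℝ)

theorem NTr (j : ℕ) (hj : j = 1 ∨ j = 2 ∨ j = 3) (x : Fin 416) :
    ∑ z, (N x z : ℝ) * (T j z : ℝ) = 24 * (T j x : ℝ) + 8 * (T 0 x : ℝ) := by
  have h := NT_spec j hj x
  have h2 : ∑ z, N x z * T j z = 24 * T j x + 8 * T 0 x := by
    rw [h]
    unfold T
    split_ifs with h0 h1 h1
    · omega
    · rfl
    · rfl
    · rfl
  exact_mod_cast h2

theorem Tr_count (j : ℕ) (hj : j = 1 ∨ j = 2 ∨ j = 3) : ∑ z, (T j z : ℝ) = 32 := by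
  exact_mod_cast T_count j hj

theorem Mr_T (j : ℕ) (hj : j = 1 ∨ j = 2 ∨ j = 3) (x : Fin 416) :
    ∑ z, Mr x z * (T j z : ℝ) = 96 * (T j x : ℝ) + 32 * (T 0 x : ℝ) - 32 := by
  have h : ∀ z, Mr x z * (T j z : ℝ) = 4 * ((N x z : ℝ) * (T j z : ℝ)) - (T j z : ℝ) := by
    intro z
    unfold Mr
    ring
  simp_rw [h]
  rw [Finset.sum_sub_distrib, ← Finset.mul_sum, NTr j hj, Tr_count j hj]
  ring

theorem T_total (z : Fin 416) : (T 0 z : ℝ) + T 1 z + T 2 z + T 3 z = 1 := by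
  exact_mod_cast T_sum z

theorem Mr_e (x : Fin 416) : ∑ z, Mr x z * eV z = 96 * eV x := by
  unfold eV
  simp_rw [mul_sub]
  rw [Finset.sum_sub_distrib, Mr_T 2 (by simp), Mr_T 3 (by simp)]
  ring

theorem Mr_c (x : Fin 416) : ∑ z, Mr x z * cV z = 96 * cV x := by
  have h : ∀ z, Mr x z * cV z =
      2 * (Mr x z * (T 1 z : ℝ)) - Mr x z * (T 2 z : ℝ) - Mr x z * (T 3 z : ℝ) := by
    intro z
    unfold cV
    ring
  simp_rw [h]
  rw [Finset.sum_sub_distrib, Finset.sum_sub_distrib, ← Finset.mul_sum, Mr_T 1 (by simp),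
    Mr_T 2 (by simp), Mr_T 3 (by simp)]
  unfold cV
  ring

theorem Tr_sq (i : ℕ) (z : Fin 416) : (T i z : ℝ) * T i z = T i z := by
  exact_mod_cast T_sq i z

theorem Tr_mul (i j : ℕ) (hij : i ≠ j) (z : Fin 416) : (T i z : ℝ) * T j z = 0 := by
  exact_mod_cast T_mul i j hij z

theorem e_e : ∑ z, eV z * eV z = 64 := by
  have h : ∀ z, eV z * eV z = (T 2 z : ℝ) + T 3 z := by
    intro z
    unfold eV
    have h1 := Tr_sq 2 z
    have h2 := Tr_sq 3 z
    have h3 := Tr_mul 2 3 (by norm_num) z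
    linear_combination h1 + h2 - 2 * h3
  simp_rw [h]
  rw [Finset.sum_add_distrib, Tr_count 2 (by simp), Tr_count 3 (by simp)]
  norm_num

theorem c_c : ∑ z, cV z * cV z = 192 := by
  have h : ∀ z, cV z * cV z = 4 * (T 1 z : ℝ) + T 2 z + T 3 z := by
    intro z
    unfold cV
    have h0 := Tr_sq 1 z
    have h1 := Tr_sq 2 z
    have h2 := Tr_sq 3 z
    have h3 := Tr_mul 2 3 (by norm_num) z
    have h4 := Tr_mul 1 2 (by norm_num) z
    have h5 := Tr_mul 1 3 (by norm_num) z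
    linear_combination 4 * h0 + h1 + h2 + 2 * h3 - 4 * h4 - 4 * h5
  simp_rw [h]
  rw [Finset.sum_add_distrib, Finset.sum_add_distrib, ← Finset.mul_sum, Tr_count 1 (by simp),
    Tr_count 2 (by simp), Tr_count 3 (by simp)]
  norm_num

theorem e_c : ∑ z, eV z * cV z = 0 := by
  have h : ∀ z, eV z * cV z = (T 3 z : ℝ) - T 2 z := by
    intro z
    unfold cV eV
    have h1 := Tr_sq 2 z
    have h2 := Tr_sq 3 z
    have h4 := Tr_mul 1 2 (by norm_num) z
    have h5 := Tr_mul 1 3 (by norm_num) z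
    linear_combination -h1 + h2 + 2 * h4 - 2 * h5
  simp_rw [h]
  rw [Finset.sum_sub_distrib, Tr_count 2 (by simp), Tr_count 3 (by simp)]
  norm_num

end Vale.Agent.P052
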