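import Vale.Agent.Lib.P052.Checks

set_option autoImplicit false

namespace Vale.Agent.P052

open Finset

attribute [local irreducible] adjN entN nsum allBelow

/-- adjacency (0 or 1) on `Fin 416` -/
def A (x y : Fin 416) : ℕ := adjN x.val y.val

theorem bit_le (r y : ℕ) : bit r y ≤ 1 := by
  unfold bit
  exact Nat.and_le_right

theorem A_le (x y : Fin 416) : A x y ≤ 1 := by
  unfold A adjN
  exact bit_le _ _

theorem A_cases (x y : Fin 416) : A x y = 0 ∨ A x y = 1 := by
  have := A_le x y
  omega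

theorem aut_spec (g : ℕ → ℕ) (h : chkAut g 416 = true) (x y : ℕ) (hx : x < 416) (hy : y < 416) :
    adjN (g x) (g y) = adjN x y := by
  unfold chkAut at h
  have h1 := allBelow_spec _ _ h x hx
  have h2 := allBelow_spec _ _ h1 y hy
  have h3 := Nat.eq_of_beq_eq_true h2
  unfold adjN
  exact h3.symm

theorem inv_spec (g h : ℕ → ℕ) (hh : chkInv g h = true) (x : ℕ) (hx : x < 416) :
    g x < 416 ∧ h x < 416 ∧ g (h x) = x ∧ h (g x) = x := by
  unfold chkInv at hh
  have h1 := allBelow_spec _ _ hh x hx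
  simp only [Bool.and_eq_true] at h1
  obtain ⟨⟨⟨ha, hb⟩, hc⟩, hd⟩ := h1
  refine ⟨?_, ?_, Nat.eq_of_beq_eq_true hc, Nat.eq_of_beq_eq_true hd⟩
  · have := Nat.le_of_ble_eq_true ha
    omega
  · have := Nat.le_of_ble_eq_true hb
    omega

/-- the permutation of the vertices given by a pair of inverse tables -/
def mkPerm (g h : ℕ → ℕ) (hh : chkInv g h = true) : Fin 416 ≃ Fin 416 where
  toFun x := ⟨g x.val, (inv_spec g h hh x.val x.isLt).1⟩
  invFun x := ⟨h x.val, (inv_spec g h hh x.val x.isLt).2.1⟩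
  left_inv x := by
    apply Fin.ext
    exact (inv_spec g h hh x.val x.isLt).2.2.2
  right_inv x := by
    apply Fin.ext
    exact (inv_spec g h hh x.val x.isLt).2.2.1

def e1 : Fin 416 ≃ Fin 416 := mkPerm g1 h1 inv1
def e2 : Fin 416 ≃ Fin 416 := mkPerm g2 h2 inv2

theorem e1_aut (x y : Fin 416) : A (e1 x) (e1 y) = A x y :=
  aut_spec g1 aut1 x.val y.val x.isLt y.isLt

theorem e2_aut (x y : Fin 416) : A (e2 x) (e2 y) = A x y :=
  aut_spec g2 aut2 x.val y.val x.isLt y.isLt

theorem par_spec (k : ℕ) (hk : k < 416) (h0 : 0 < k) :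
    parV k < k ∧ (g1 (parV k) = k ∨ g2 (parV k) = k) := by
  have h := allBelow_spec _ _ par_ok k hk
  rw [Bool.or_eq_true] at h
  rcases h with h | h
  · have := Nat.le_of_ble_eq_true h
    omega
  · rw [Bool.and_eq_true] at h
    obtain ⟨ha, hb⟩ := h
    have h1 : parV k < k := Nat.le_of_ble_eq_true ha
    refine ⟨h1, ?_⟩
    split_ifs at hb with hc
    · exact Or.inl (Nat.eq_of_beq_eq_true hb)
    · exact Or.inr (Nat.eq_of_beq_eq_true hb)

/-- the automorphism group acts transitively -/
theorem trans (x : Fin 416) :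
    ∃ e : Fin 416 ≃ Fin 416, (∀ a b, A (e a) (e b) = A a b) ∧ e 0 = x := by
  obtain ⟨k, hk⟩ := x
  induction k using Nat.strong_induction_on with
  | _ k ih =>
    rcases Nat.eq_zero_or_pos k with h0 | h0
    · subst h0
      exact ⟨Equiv.refl _, fun _ _ => rfl, rfl⟩
    · obtain ⟨hlt, hg⟩ := par_spec k hk h0
      obtain ⟨e, he, he0⟩ := ih (parV k) hlt (by omega)
      rcases hg with hg | hg
      · refine ⟨e.trans e1, fun a b => ?_, ?_⟩
        · rw [Equiv.trans_apply, Equiv.trans_apply, e1_aut, he]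
        · rw [Equiv.trans_apply, he0]
          apply Fin.ext
          exact hg
      · refine ⟨e.trans e2, fun a b => ?_, ?_⟩
        · rw [Equiv.trans_apply, Equiv.trans_apply, e2_aut, he]
        · rw [Equiv.trans_apply, he0]
          apply Fin.ext
          exact hg

theorem base_spec (y : Fin 416) :
    A 0 y = A y 0 ∧
      nsum (fun z => Nat.mul (entN 0 z) (entN y.val z)) 416 = 24 * entN 0 y.val + 20 := by
  have h := allBelow_spec _ _ base_ok y.val y.isLt
  rw [Bool.and_eq_true] at h
  exact ⟨Nat.eq_of_beq_eq_true h.1, Nat.eq_of_beq_eq_true h.2⟩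

theorem A_symm (x y : Fin 416) : A x y = A y x := by
  obtain ⟨e, he, he0⟩ := trans x
  have h1 : A x y = A 0 (e.symm y) := by
    rw [← he 0 (e.symm y), he0, Equiv.apply_symm_apply]
  have h2 : A y x = A (e.symm y) 0 := by
    rw [← he (e.symm y) 0, he0, Equiv.apply_symm_apply]
  rw [h1, h2, (base_spec _).1]

theorem A_self (x : Fin 416) : A x x = 0 := by
  obtain ⟨e, he, he0⟩ := trans x
  have h := deg_ok
  unfold chkDeg at h
  rw [Bool.and_eq_true] at h
  have h2 : A 0 0 = 0 := Nat.eq_of_beq_eq_true h.2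
  rw [← he0, he, h2]

/-- entries of the matrix `A + 4 I` -/
def N (x y : Fin 416) : ℕ := entN x.val y.val

theorem N_def (x y : Fin 416) : N x y = if x = y then 4 else A x y := by
  unfold N entN A
  by_cases h : x = y
  · subst h; simp
  · have : x.val ≠ y.val := fun h' => h (Fin.ext h')
    simp [h, this]

theorem N_aut (e : Fin 416 ≃ Fin 416) (he : ∀ a b, A (e a) (e b) = A a b) (x y : Fin 416) :
    N (e x) (e y) = N x y := by
  rw [N_def, N_def, he]
  simp

theorem N_symm (x y : Fin 416) : N x y = N y x := by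
  rw [N_def, N_def, A_symm]
  simp [eq_comm]

theorem nsum_fin (f : ℕ → ℕ) : nsum f 416 = ∑ z : Fin 416, f z.val := by
  rw [nsum_eq, Finset.sum_range]

theorem A_deg (x : Fin 416) : ∑ z, A x z = 100 := by
  obtain ⟨e, he, he0⟩ := trans x
  have h := deg_ok
  unfold chkDeg at h
  rw [Bool.and_eq_true] at h
  have h2 : nsum (fun z => adjN 0 z) 416 = 100 := Nat.eq_of_beq_eq_true h.1
  rw [nsum_fin] at h2
  rw [← he0, ← Equiv.sum_comp e]
  simp_rw [he]
  exact h2

theorem N_deg (x : Fin 416) : ∑ z, N x z = 104 := by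
  have h : ∀ z, N x z = A x z + if x = z then 4 else 0 := by
    intro z
    rw [N_def]
    split_ifs with h
    · subst h; rw [A_self]
    · rfl
  simp_rw [h]
  rw [Finset.sum_add_distrib, A_deg]
  simp

theorem N_sq (x y : Fin 416) : ∑ z, N x z * N y z = 24 * N x y + 20 := by
  obtain ⟨e, he, he0⟩ := trans x
  have h := (base_spec (e.symm y)).2
  rw [nsum_fin] at h
  have h1 : ∑ z, N x z * N y z = ∑ z, N 0 z * N (e.symm y) z := by
    rw [← Equiv.sum_comp e]
    apply Finset.sum_congr rfl
    intro z _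
    have ha : N x (e z) = N 0 z := by
      rw [← he0]
      exact N_aut e he 0 z
    have hb : N y (e z) = N (e.symm y) z := by
      have := N_aut e he (e.symm y) z
      rw [Equiv.apply_symm_apply] at this
      exact this
    rw [ha, hb]
  have h2 : N x y = N 0 (e.symm y) := by
    have := N_aut e he 0 (e.symm y)
    rw [he0, Equiv.apply_symm_apply] at this
    exact this
  rw [h1, h2]
  exact h

theorem ncStep_spec (k : ℕ) (f : List ℕ → Bool)
    (hf : ∀ l : List ℕ, f l = true → ∀ s : Finset ℕ, (∀ a ∈ s, a ∈ l) → s.card = k →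
      (∀ a ∈ s, ∀ b ∈ s, a ≠ b → adjN a b = 1) → False) :
    ∀ l : List ℕ, ncStep f l = true → ∀ s : Finset ℕ, (∀ a ∈ s, a ∈ l) → s.card = k + 1 →
      (∀ a ∈ s, ∀ b ∈ s, a ≠ b → adjN a b = 1) → False := by
  intro l
  induction l with
  | nil =>
    intro _ s hs hc _
    have : s = ∅ := by
      apply Finset.eq_empty_of_forall_notMem
      intro a ha
      exact absurd (hs a ha) (by simp)
    rw [this] at hc
    simp at hc
  | cons v r ih =>
    intro hn s hs hc hadj
    have hn' : (f (r.filter (fun w => Nat.beq (adjN v w) 1)) && ncStep f r) = true := hn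
    rw [Bool.and_eq_true] at hn'
    by_cases hv : v ∈ s
    · refine hf _ hn'.1 (s.erase v) ?_ ?_ ?_
      · intro a ha
        rw [Finset.mem_erase] at ha
        rw [List.mem_filter]
        have h1 := hs a ha.2
        rw [List.mem_cons] at h1
        refine ⟨h1.resolve_left ha.1, ?_⟩
        have := hadj v hv a ha.2 (Ne.symm ha.1)
        rw [this]
        rfl
      · rw [Finset.card_erase_of_mem hv, hc]
        rfl
      · intro a ha b hb hab
        exact hadj a (Finset.mem_of_mem_erase ha) b (Finset.mem_of_mem_erase hb) hab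
    · refine ih hn'.2 s ?_ hc hadj
      intro a ha
      have h1 := hs a ha
      rw [List.mem_cons] at h1
      refine h1.resolve_left ?_
      rintro rfl
      exact hv ha

theorem nc_spec (k : ℕ) : ∀ l : List ℕ, nc k l = true → ∀ s : Finset ℕ, (∀ a ∈ s, a ∈ l) →
    s.card = k → (∀ a ∈ s, ∀ b ∈ s, a ≠ b → adjN a b = 1) → False := by
  induction k with
  | zero =>
    intro l h
    exact absurd h (by simp [nc])
  | succ k ih => exact ncStep_spec k (nc k) ih

/-- there are no six pairwise adjacent vertices -/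
theorem clique_le (s : Finset (Fin 416)) (hs : ∀ a ∈ s, ∀ b ∈ s, a ≠ b → A a b = 1) :
    s.card ≤ 5 := by
  by_contra hcon
  push Not at hcon
  obtain ⟨t, hts, htc⟩ := Finset.exists_subset_card_eq (show 6 ≤ s.card by omega)
  have ht : ∀ a ∈ t, ∀ b ∈ t, a ≠ b → A a b = 1 := fun a ha b hb => hs a (hts ha) b (hts hb)
  have hne : t.Nonempty := by
    rw [← Finset.card_pos]; omega
  obtain ⟨x, hx⟩ := hne
  obtain ⟨e, he, he0⟩ := trans x
  -- move to the base point
  let u : Finset (Fin 416) := (t.erase x).map e.symm.toEmbedding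
  have huc : u.card = 5 := by
    simp only [u, Finset.card_map]
    rw [Finset.card_erase_of_mem hx, htc]
  have hu : ∀ a ∈ u, e a ∈ t ∧ e a ≠ x := by
    intro a ha
    simp only [u, Finset.mem_map, Equiv.coe_toEmbedding] at ha
    obtain ⟨b, hb, rfl⟩ := ha
    rw [Equiv.apply_symm_apply]
    exact ⟨Finset.mem_of_mem_erase hb, Finset.ne_of_mem_erase hb⟩
  let w : Finset ℕ := u.map Fin.valEmbedding
  have hw : ∀ a ∈ w, ∃ b : Fin 416, b ∈ u ∧ b.val = a := by
    intro a ha
    simp only [w, Finset.mem_map] at ha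
    obtain ⟨b, hb, hba⟩ := ha
    exact ⟨b, hb, hba⟩
  refine nc_spec 5 nbr0 nc_ok w ?_ ?_ ?_
  · intro a ha
    obtain ⟨b, hb, rfl⟩ := hw a ha
    unfold nbr0
    rw [List.mem_filter]
    refine ⟨List.mem_range.mpr b.isLt, ?_⟩
    have h1 : A x (e b) = 1 := ht x hx (e b) (hu b hb).1 (Ne.symm (hu b hb).2)
    rw [← he0, he] at h1
    have h2 : adjN 0 b.val = 1 := h1
    rw [h2]
    rfl
  · simp only [w, Finset.card_map]
    exact huc
  · intro a ha b hb hab
    obtain ⟨a', ha', rfl⟩ := hw a ha
    obtain ⟨b', hb', rfl⟩ := hw b hb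
    have hne' : e a' ≠ e b' := by
      intro h
      apply hab
      rw [e.injective h]
    have := ht (e a') (hu a' ha').1 (e b') (hu b' hb').1 hne'
    rw [he] at this
    exact this

end Vale.Agent.P052
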