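import Vale.Agent.Lib.P052.Geom

set_option autoImplicit false

namespace Vale.Agent.P052

open Finset

attribute [local irreducible] adjN entN nsum allBelow typ wgt T

/-! ### the projections onto the 63- and 64-dimensional spaces -/

noncomputable def Q64 : Matrix (Fin 416) (Fin 416) ℝ :=
  fun x y => Mr x y / 96 - eV x * eV y / 64

noncomputable def Q63 : Matrix (Fin 416) (Fin 416) ℝ :=
  fun x y => Mr x y / 96 - eV x * eV y / 64 - cV x * cV y / 192

theorem Mr_sq' (x y : Fin 416) : ∑ z, Mr x z * Mr z y = 96 * Mr x y := by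
  rw [← Mr_sq]
  apply Finset.sum_congr rfl
  intro z _
  rw [Mr_symm z y]

theorem e_Mr (y : Fin 416) : ∑ z, eV z * Mr z y = 96 * eV y := by
  rw [← Mr_e]
  apply Finset.sum_congr rfl
  intro z _
  rw [Mr_symm z y, mul_comm]

theorem c_Mr (y : Fin 416) : ∑ z, cV z * Mr z y = 96 * cV y := by
  rw [← Mr_c]
  apply Finset.sum_congr rfl
  intro z _
  rw [Mr_symm z y, mul_comm]

theorem Q64_idem : Q64 * Q64 = Q64 := by
  ext x y
  rw [Matrix.mul_apply]
  have h : ∀ z, Q64 x z * Q64 z y =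
      (1 / 9216) * (Mr x z * Mr z y) - (eV y / 6144) * (Mr x z * eV z)
        - (eV x / 6144) * (eV z * Mr z y) + (eV x * eV y / 4096) * (eV z * eV z) := by
    intro z
    unfold Q64
    ring
  simp_rw [h]
  rw [Finset.sum_add_distrib, Finset.sum_sub_distrib, Finset.sum_sub_distrib, ← Finset.mul_sum,
    ← Finset.mul_sum, ← Finset.mul_sum, ← Finset.mul_sum, Mr_sq', Mr_e, e_Mr, e_e]
  unfold Q64
  ring

theorem Q63_idem : Q63 * Q63 = Q63 := by
  ext x y
  rw [Matrix.mul_apply]
  have h : ∀ z, Q63 x z * Q63 z y =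
      Q64 x z * Q64 z y - (cV y / 192) * ((1 / 96) * (Mr x z * cV z) - (eV x / 64) * (eV z * cV z))
        - (cV x / 192) * ((1 / 96) * (cV z * Mr z y) - (eV y / 64) * (eV z * cV z))
        + (cV x * cV y / 36864) * (cV z * cV z) := by
    intro z
    unfold Q63 Q64
    ring
  simp_rw [h]
  have h2 := congrFun (congrFun Q64_idem x) y
  rw [Matrix.mul_apply] at h2
  rw [Finset.sum_add_distrib, Finset.sum_sub_distrib, Finset.sum_sub_distrib, ← Finset.mul_sum,
    ← Finset.mul_sum, ← Finset.mul_sum, h2, Finset.sum_sub_distrib, Finset.sum_sub_distrib,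
    ← Finset.mul_sum, ← Finset.mul_sum, ← Finset.mul_sum, ← Finset.mul_sum, Mr_c, c_Mr, e_c, c_c]
  unfold Q63 Q64
  ring

theorem Q64_trace : Q64.trace = (64 : ℕ) := by
  unfold Matrix.trace Matrix.diag Q64
  simp_rw [Mr_self]
  rw [Finset.sum_sub_distrib, ← Finset.sum_div, ← Finset.sum_div, e_e]
  simp
  norm_num

theorem Q63_trace : Q63.trace = (63 : ℕ) := by
  unfold Matrix.trace Matrix.diag Q63
  simp_rw [Mr_self]
  rw [Finset.sum_sub_distrib, Finset.sum_sub_distrib, ← Finset.sum_div, ← Finset.sum_div,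
    ← Finset.sum_div, e_e, c_c]
  simp
  norm_num

theorem T_typ (j : ℕ) (x : Fin 416) (h : typ x.val = j) (i : ℕ) :
    T i x = if i = j then 1 else 0 := by
  unfold T
  rw [h]
  by_cases h' : j = i
  · rw [if_pos h', if_pos h'.symm]
  · rw [if_neg h', if_neg (Ne.symm h')]

theorem eV_zero (x : Fin 416) (h : typ x.val = 0 ∨ typ x.val = 1) : eV x = 0 := by
  unfold eV
  rcases h with h | h <;> rw [T_typ _ x h, T_typ _ x h] <;> simp

theorem cV_zero (x : Fin 416) (h : typ x.val = 0) : cV x = 0 := by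
  unfold cV
  rw [T_typ _ x h, T_typ _ x h, T_typ _ x h]
  simp

theorem cV_one (x : Fin 416) (h : typ x.val = 1) : cV x = 2 := by
  unfold cV
  rw [T_typ _ x h, T_typ _ x h, T_typ _ x h]
  simp

theorem Q64_fix (x : Fin 416) (h : typ x.val = 0 ∨ typ x.val = 1) :
    Q64.mulVec (fun z => Mr x z) = fun z => Mr x z := by
  funext y
  unfold Matrix.mulVec dotProduct
  have h1 : ∀ z, Q64 y z * Mr x z = (1 / 96) * (Mr y z * Mr x z) - (eV y / 64) * (Mr x z * eV z) := by
    intro z
    unfold Q64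
    ring
  simp_rw [h1]
  rw [Finset.sum_sub_distrib, ← Finset.mul_sum, ← Finset.mul_sum, Mr_sq, Mr_e, eV_zero x h,
    Mr_symm x y]
  ring

theorem Q63_fix (x : Fin 416) (h : typ x.val = 0) :
    Q63.mulVec (fun z => Mr x z) = fun z => Mr x z := by
  funext y
  have h0 := congrFun (Q64_fix x (Or.inl h)) y
  unfold Matrix.mulVec dotProduct at h0 ⊢
  have h1 : ∀ z, Q63 y z * Mr x z = Q64 y z * Mr x z - (cV y / 192) * (Mr x z * cV z) := by
    intro z
    unfold Q63 Q64
    ring
  simp_rw [h1]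
  rw [Finset.sum_sub_distrib, ← Finset.mul_sum, Mr_c, cV_zero x h, h0]
  ring

theorem Q63_fix' (x : Fin 416) (h : typ x.val = 1) (lam : ℝ) :
    Q63.mulVec (fun z => lam * (Mr x z - cV z)) = fun z => lam * (Mr x z - cV z) := by
  funext y
  have h0 := congrFun (Q64_fix x (Or.inr h)) y
  unfold Matrix.mulVec dotProduct at h0 ⊢
  have h1 : ∀ z, Q63 y z * (lam * (Mr x z - cV z)) = lam * (Q64 y z * Mr x z)
      - (lam * cV y / 192) * (Mr x z * cV z) - (lam / 96) * (Mr y z * cV z)
      + (lam * eV y / 64) * (eV z * cV z) + (lam * cV y / 192) * (cV z * cV z) := by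
    intro z
    unfold Q63 Q64
    ring
  simp_rw [h1]
  rw [Finset.sum_add_distrib, Finset.sum_add_distrib, Finset.sum_sub_distrib,
    Finset.sum_sub_distrib, ← Finset.mul_sum, ← Finset.mul_sum, ← Finset.mul_sum,
    ← Finset.mul_sum, ← Finset.mul_sum, h0, Mr_c, Mr_c, e_c, c_c, cV_one x h]
  ring

/-! ### distances -/

theorem dist_sq {κ : Type*} [Fintype κ] (f g : κ → ℝ) :
    dist (WithLp.toLp 2 f : EuclideanSpace ℝ κ) (WithLp.toLp 2 g) =
      Real.sqrt (∑ z, (f z - g z) ^ 2) := by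
  rw [EuclideanSpace.dist_eq]
  congr 1
  apply Finset.sum_congr rfl
  intro z _
  rw [Real.dist_eq, sq_abs]

theorem Mr_ne (x y : Fin 416) (h : x ≠ y) : Mr x y = 4 * (A x y : ℝ) - 1 := by
  unfold Mr
  rw [N_def, if_neg h]

theorem sum_Mr (x y : Fin 416) (h : x ≠ y) :
    ∑ z, (Mr x z - Mr y z) ^ 2 = 3072 - 768 * (A x y : ℝ) := by
  have h1 : ∀ z, (Mr x z - Mr y z) ^ 2 =
      Mr x z * Mr x z - 2 * (Mr x z * Mr y z) + Mr y z * Mr y z := by
    intro z
    ring
  simp_rw [h1]
  rw [Finset.sum_add_distrib, Finset.sum_sub_distrib, ← Finset.mul_sum, Mr_sq, Mr_sq, Mr_sq,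
    Mr_self, Mr_self, Mr_ne x y h]
  ring

theorem sum_MrSelf (x : Fin 416) : ∑ z, Mr x z ^ 2 = 1440 := by
  have h1 : ∀ z, Mr x z ^ 2 = Mr x z * Mr x z := by
    intro z
    ring
  simp_rw [h1]
  rw [Mr_sq, Mr_self]
  norm_num

/-- the scaling factor: the positive root of `13 t^2 + 2 t = 17` -/
noncomputable def lam : ℝ := (Real.sqrt 222 - 1) / 13

theorem lam_eq : 13 * lam ^ 2 + 2 * lam = 17 := by
  unfold lam
  have h : Real.sqrt 222 ^ 2 = 222 := Real.sq_sqrt (by norm_num)
  field_simp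
  linear_combination h

theorem lam_pos : 0 < lam := by
  unfold lam
  have h : 1 < Real.sqrt 222 := by
    rw [Real.lt_sqrt (by norm_num)]
    norm_num
  have : 0 < Real.sqrt 222 - 1 := by linarith
  positivity

theorem sum_lam (x y : Fin 416) (hx : typ x.val = 1) (hy : typ y.val = 0) :
    ∑ z, (lam * (Mr x z - cV z) - Mr y z) ^ 2 = 3072 - 768 * lam * (A x y : ℝ) := by
  have hne : x ≠ y := by
    rintro rfl
    omega
  have h1 : ∀ z, (lam * (Mr x z - cV z) - Mr y z) ^ 2 =
      lam ^ 2 * (Mr x z * Mr x z) - (2 * lam ^ 2) * (Mr x z * cV z) + lam ^ 2 * (cV z * cV z)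
        - (2 * lam) * (Mr x z * Mr y z) + (2 * lam) * (Mr y z * cV z) + Mr y z * Mr y z := by
    intro z
    ring
  simp_rw [h1]
  rw [Finset.sum_add_distrib, Finset.sum_add_distrib, Finset.sum_sub_distrib,
    Finset.sum_add_distrib, Finset.sum_sub_distrib, ← Finset.mul_sum, ← Finset.mul_sum,
    ← Finset.mul_sum, ← Finset.mul_sum, ← Finset.mul_sum, Mr_sq, Mr_sq, Mr_sq, Mr_c, Mr_c, c_c,
    cV_one x hx, cV_zero y hy, Mr_self, Mr_self, Mr_ne x y hne]
  have h2 := lam_eq
  linear_combination 96 * h2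

/-- a set of vertices that are pairwise closer than the diameter is a clique -/
theorem card_le_of_near {ι : Type*} [DecidableEq ι] (f : ι → Fin 416) (hf : Function.Injective f)
    (s : Finset ι) (hs : ∀ a ∈ s, ∀ b ∈ s, a ≠ b → A (f a) (f b) ≠ 0) : s.card ≤ 5 := by
  have h := clique_le (s.image f) ?_
  · rwa [Finset.card_image_of_injective s hf] at h
  · intro a ha b hb hab
    rw [Finset.mem_image] at ha hb
    obtain ⟨a', ha', rfl⟩ := ha
    obtain ⟨b', hb', rfl⟩ := hb
    have hne : a' ≠ b' := by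
      rintro rfl
      exact hab rfl
    have := hs a' ha' b' hb' hne
    rcases A_cases (f a') (f b') with h0 | h0
    · exact absurd h0 this
    · exact h0

end Vale.Agent.P052
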